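import Crest.Agent.X261.Rel85.AvgA

/-!
# Row 261, REL (helper85), AVG part B: the induced representation and the frame
-/

set_option autoImplicit false
set_option linter.unusedSectionVars false

open Set Filter Topology Complex Matrix MeasureTheory
open scoped ENNReal InnerProductSpace

namespace Crest.Agent.X261.Rel85

open Crest.Agent.R275.Geo Crest.Agent.R275.Core144
open Crest.Agent.R275.OmT75 (dl)
open Crest.Agent.R273.UCov_914
open Crest.Agent.R273.Fock_243 (FI Gam eW iW ep)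
open Crest.Agent.X261.Top (dW)
open Crest.Agent.X261.Gauss (mv dV Frm)
open Crest.Agent.X261.Rel Crest.Agent.X261.Rel.Act Crest.Agent.X261.Rel.Ms
open Crest.Agent.R189.MeanF

noncomputable section

variable {n : ℕ} {X : Type} [TopologicalSpace X] {A : Atl n X} {G : Type} [Group G] {q : ℕ}
  {D : MonD A G} {M N : Subgroup G} {Z : Stp D q M}
  {H : Type} [NormedAddCommGroup H] [InnerProductSpace ℂ H] [CompleteSpace H]

theorem cc_mul (g h : G) (ω : G ⧸ M) : cc M (g * h) ω = cc M g ω * cc M h (g⁻¹ • ω) := by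
  apply Subtype.ext
  simp only [Subgroup.coe_mul, cc_coe, _root_.mul_inv_rev, mul_smul]
  group

/-- the induced representation -/
def ind (a : Act M H) (μ : Mn (G ⧸ M)) (hμ : ∀ g : G, Inv μ (MulAction.toPerm g)) :
    Rep G (Ms μ H) where
  π := MonoidHom.mk' (fun g => map (hμ g⁻¹) fun ω => a.π (cc M g ω)) fun g h => by
    ext x
    refine induction μ (P := fun x => map (hμ (g * h)⁻¹) (fun ω => a.π (cc M (g * h) ω)) x =
      map (hμ g⁻¹) (fun ω => a.π (cc M g ω)) (map (hμ h⁻¹) (fun ω => a.π (cc M h ω)) x))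
      (isClosed_eq (by fun_prop) (by fun_prop)) (fun u => ?_) x
    simp only [map_i]
    congr 1
    ext ω
    simp only [lm_apply, cc_mul, Rep.π_mul, MulAction.toPerm_apply, _root_.mul_inv_rev, mul_smul]
  J := map (inv_refl μ) fun _ => a.J
  JJ x := by
    refine induction μ (P := fun x => map (inv_refl μ) (fun _ => a.J)
      (map (inv_refl μ) (fun _ => a.J) x) = x)
      (isClosed_eq (by fun_prop) (by fun_prop)) (fun u => ?_) x
    simp only [map_i]
    congr 1
    ext ω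
    simp [a.JJ]
  Jπ g x := by
    refine induction μ (P := fun x => map (inv_refl μ) (fun _ => a.J)
      (map (hμ g⁻¹) (fun ω => a.π (cc M g ω)) x) =
      map (hμ g⁻¹) (fun ω => a.π (cc M g ω)) (map (inv_refl μ) (fun _ => a.J) x))
      (isClosed_eq (by fun_prop) (by fun_prop)) (fun u => ?_) x
    simp only [map_i]
    congr 1
    ext ω
    simp [a.Jπ]

theorem fx_mem {W : Type} [NormedAddCommGroup W] [InnerProductSpace ℂ W] [N.Normal] (r : Rep G W)
    (g : G) (c : ℂ) {ξ : W} (h : ξ ∈ Fx r N) : c • r.π g ξ ∈ Fx r N :=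
  (Fx r N).smul_mem c fun s hs => by
    have h1 := h _ (Subgroup.Normal.conj_mem' ‹_› s hs g)
    conv_rhs => rw [← h1]
    rw [← r.π_mul, ← r.π_mul]
    congr 2
    group

variable (Z) in
/-- the twisted representation on the fixed vectors -/
def rho {W : Type} [NormedAddCommGroup W] [InnerProductSpace ℂ W] [N.Normal] (r : Rep G W) :
    G →* (Fx r N ≃ₗᵢ[ℂ] Fx r N) :=
  MonoidHom.mk' (fun g =>
    { toFun := fun ξ => ⟨(Z.L g).det • r.π g ξ, fx_mem r g _ ξ.2⟩
      invFun := fun ξ => ⟨(Z.L g⁻¹).det • r.π g⁻¹ ξ, fx_mem r g⁻¹ _ ξ.2⟩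
      map_add' := fun ξ η => Subtype.ext (by simp)
      map_smul' := fun c ξ => Subtype.ext (by simp [smul_comm c])
      left_inv := fun ξ => Subtype.ext (by
        simp only [map_smul, smul_smul, Rep.π_inv_π, ← det_mul, inv_mul_cancel,
          det_of_eq Z (map_one _), one_smul])
      right_inv := fun ξ => Subtype.ext (by
        simp only [map_smul, smul_smul, Rep.π_π_inv, ← det_mul, mul_inv_cancel,
          det_of_eq Z (map_one _), one_smul])
      norm_map' := fun ξ => by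
        change ‖(Z.L g).det • r.π g ξ‖ = ‖(ξ : W)‖
        rw [norm_smul, Z.det, one_mul, LinearIsometryEquiv.norm_map] })
    fun g h => LinearIsometryEquiv.ext fun ξ => Subtype.ext (by
      change (Z.L (g * h)).det • r.π (g * h) ξ = (Z.L g).det • r.π g ((Z.L h).det • r.π h ξ)
      rw [det_mul, r.π_mul, map_smul, smul_smul])

variable {a : Act M H} (m : Min D Z.al a N)

theorem SL_eqv (h : G) (i : A.ι) (v : G) (x : X) (hx : x ∈ (A.e i).source) (I : FI n) :
    SL m (fun ω : G ⧸ M => ω.out) i (v * h⁻¹) x I =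
      (Z.L h).det • tl a h (SL m (fun ω : G ⧸ M => ω.out) i v x I) := by
  ext ω
  have h1 : ω.out * cc M h ω = h * (h⁻¹ • ω).out := by rw [cc_coe]; group
  have h2 : (Z.L ω.out).det = (Z.L h).det * (Z.L (h⁻¹ • ω).out).det := by
    rw [← det_mul, ← h1, det_mul, det_of_eq Z (Z.L_M _ (cc M h ω).2), mul_one]
  have h3 : v * h⁻¹ * ω.out = v * (h⁻¹ • ω).out * (cc M h ω : G)⁻¹ := by rw [cc_coe]; group
  change _ = (Z.L h).det • a.π (cc M h ω) (SL m (fun ω : G ⧸ M => ω.out) i v x I (h⁻¹ • ω))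
  rw [SL_eq _ _ _ _ _ hx, SL_eq _ _ _ _ _ hx, h2, h3, m.S_eqv _ i _ x hx, map_smul, mul_smul]

theorem SL_N [N.Normal] {Ω : Type*} (σ : Ω → G) {h : G} (hh : h ∈ N) (i : A.ι) (v : G) (x : X)
    (hx : x ∈ (A.e i).source) (I : FI n) : SL m σ i (v * h⁻¹) x I = SL m σ i v x I := by
  ext ω
  have h1 : v * h⁻¹ * σ ω = v * σ ω * ((σ ω)⁻¹ * h * σ ω)⁻¹ := by group
  rw [SL_eq _ _ _ _ _ hx, SL_eq _ _ _ _ _ hx, h1,
    m.S_N _ (Subgroup.Normal.conj_mem' ‹_› h hh _) i _ x hx]

theorem mv_clm {W W' : Type*} [NormedAddCommGroup W] [NormedSpace ℂ W] [NormedAddCommGroup W']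
    [NormedSpace ℂ W'] (l : W →L[ℂ] W') (B : Matrix (FI n) (FI n) ℂ) (S : FI n → W) :
    mv B (fun I => l (S I)) = fun I => l (mv B S I) := Plk.mv_map (l : W →ₗ[ℂ] W') B S

theorem exists_frm {Ω : Type} [Nonempty Ω] (σ : Ω → G) (μ : Mn Ω) {W : Type} [NormedAddCommGroup W]
    [InnerProductSpace ℂ W] (P : Li Ω H →L[ℂ] W)
    (hP : ∀ j v x I, ‖P (SL m σ j v x I)‖ = ‖i μ (SL m σ j v x I)‖) (ρ : G →* (W ≃ₗᵢ[ℂ] W))
    (hρ : ∀ (g : G) j v, ∀ x ∈ (A.e j).source, ∀ I,
      P (SL m σ j (v * g⁻¹) x I) = ρ g (P (SL m σ j v x I)))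
    (hτ : ∃ i v, ∃ x ∈ (A.e i).source, dW A i (aV D Z.al i v) x ≠ 0)
    (hS : ∃ i v, ∃ x ∈ (A.e i).source, m.S i v x ≠ 0) : ∃ Φ : Frm D q W, Φ.a = aV D Z.al ∧
      (Φ.S = fun j v x I => P (SL m σ j v x I)) ∧ Φ.ρ = ρ := by
  have hc : ∀ j v I, ∀ K ⊆ (A.e j).target,
      ContinuousOn (fun z => SL m σ j v ((A.e j).symm z) I) K :=
    fun j v I K hK => (SL_hol m _ j v I).continuousOn.mono hK
  have hn : ∀ j v I ω, ∀ K ⊆ (A.e j).target, IsCompact K →
      ENNReal.ofReal (∫ z in K, ‖SL m σ j v ((A.e j).symm z) I ω‖ ^ 2) =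
        ∫⁻ z in K, ‖m.S j (v * σ ω) ((A.e j).symm z) I‖ₑ ^ 2 := fun j v I ω K hK hK' => by
    rw [lint_sq hK' ((m.lim.S_hol j _ I).continuousOn.mono hK)]
    congr 1
    refine setIntegral_congr_fun hK'.measurableSet fun z hz => ?_
    simp only [SL_eq m _ j v _ ((A.e j).map_target (hK hz)), norm_smul, Z.det, one_mul]
  refine ⟨{ a := aV D Z.al
            a_hol := fun j v k =>
              ((EuclideanSpace.proj (𝕜 := ℂ) k).differentiable.comp_differentiableOn
                (aV_hol Z j v)).mono inter_subset_left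
            a_tr := fun j l v x hx => ⟨0, fun y hy => ?_⟩
            a_eqv := fun g =>
              ⟨mt (Z.L g), by rw [det_mt, Z.det], fun j v => ⟨Z.lam g, fun x _ k => ?_⟩⟩
            tau_ne := hτ
            S := fun j v x I => P (SL m σ j v x I)
            S_hol := fun j v I => P.differentiable.comp_differentiableOn (SL_hol m _ j v I)
            S_tr := fun j l v x hx => ?_
            ρ := ρ
            S_eqv := hρ
            deg := fun j v x hx I hI => by rw [SL_deg m _ j v x hx I hI, map_zero]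
            hor := fun j v x hx k => ?_
            closed := fun j v x hx => funext fun J => ?_
            S_ne := ?_
            bd := fun j v z₀ hz => ?_ }, rfl, rfl, rfl⟩
  · rw [add_zero, aV, aV, D.pt_eq v hy.1 hy.2, D.c_loc j l x hx y hy, smul_eq_mul]
  · rw [aV_mul, PiLp.add_apply, mt_apply]
  · rw [mv_clm, ← SL_tr m _ j l v x hx]
  · rw [mv_clm, SL_hor m _ j v x hx k]
    exact funext fun _ => map_zero P
  · rw [closed_map P (SL_hol m _ j v) (fun _ _ _ => rfl) hx J, SL_closed m _ j v x hx]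
    exact map_zero P
  · by_contra h0
    push Not at h0
    obtain ⟨T, K, c, hc0, hK, h⟩ := m.low hS
    have h1 := fun p : (A.ι × G) × FI n =>
      int_mean μ (hK p.1.1).1 (hc p.1.1 p.1.2 p.2 _ (hK p.1.1).2)
    obtain ⟨h2, h3⟩ := mean_sum μ (T ×ˢ Finset.univ) fun p => (h1 p).1
    have h4 : ∀ ω : Ω, c ≤ ENNReal.ofReal (∑ p ∈ T ×ˢ Finset.univ,
        ∫ z in K p.1.1, ‖SL m σ p.1.1 p.1.2 ((A.e p.1.1).symm z) p.2 ω‖ ^ 2) := fun ω => by
      rw [ENNReal.ofReal_sum_of_nonneg fun _ _ => integral_nonneg fun _ => sq_nonneg _,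
        Finset.sum_product]
      simp only [hn _ _ _ _ _ (hK _).2 (hK _).1]
      exact h _
    have h5 : c ≠ ⊤ := ne_top_of_le_ne_top ENNReal.ofReal_ne_top (h4 (Classical.arbitrary Ω))
    have h6 := μ.is.mono (Bdd.const c.toReal) h2 fun ω => ENNReal.toReal_le_of_le_ofReal
      (Finset.sum_nonneg fun _ _ => integral_nonneg fun _ => sq_nonneg _) (h4 ω)
    rw [μ.is.const, h3, Finset.sum_eq_zero fun p _ => ?_] at h6
    · exact absurd h6 (not_le.2 (ENNReal.toReal_pos hc0.ne' h5))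
    · rw [← (h1 p).2]
      refine setIntegral_eq_zero_of_forall_eq_zero fun z hz => ?_
      rw [← hP, congrFun (h0 _ _ _ ((A.e _).map_target ((hK _).2 hz))) p.2]
      simp
  · obtain ⟨V, hV, C, hC, h⟩ := m.up j z₀ hz
    refine ⟨V ∩ (A.e j).target, inter_mem hV ((A.e j).open_target.mem_nhds hz), C, hC,
      fun K hK hK' I => ?_⟩
    have h1 := hK.trans inter_subset_right
    obtain ⟨h2, h3⟩ := int_mean μ hK' (hc j v I K h1)
    have h4 : volume ((fun z => aV D Z.al j v ((A.e j).symm z)) '' K) < ⊤ :=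
      (hK'.image_of_continuousOn ((aV_hol Z j v).continuousOn.mono h1)).measure_lt_top
    rw [lint_sq (F := fun z => P (SL m σ j v ((A.e j).symm z) I)) hK'
      (P.continuous.comp_continuousOn (hc j v I K h1))]
    refine ENNReal.ofReal_le_of_le_toReal ?_
    simp only [hP]
    rw [h3, ← μ.is.const (ENNReal.toReal _)]
    refine μ.is.mono h2 (Bdd.const _) fun ω => ?_
    rw [← ENNReal.ofReal_le_iff_le_toReal (ENNReal.mul_ne_top hC.ne h4.ne), hn j v I ω K h1 hK',
      ← vol_mul Z j v (σ ω)]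
    exact h _ K (hK.trans inter_subset_left) hK' I

/-- **AVG** -/
theorem av : AvStmt := by
  intro n X _ A G _ D q M N _ _ Z H _ _ _ a m hA hN hτ hS
  obtain ⟨μ, hμ0⟩ := exists_mean hA
  have hμ : ∀ g : G, Inv μ (MulAction.toPerm g) := fun g f hf => by
    rw [← hμ0 (g : G ⧸ M) f hf]
    congr 1
  obtain ⟨r, hπ, hJ⟩ : ∃ r : Rep G (Ms μ H), (∀ g u, r.π g (i μ u) = i μ (tl a g u)) ∧
      ∀ u, r.J (i μ u) = i μ (jl a u) :=
    ⟨ind a μ hμ, fun g u => map_i (hμ g⁻¹) _ u, fun u => map_i (inv_refl μ) _ u⟩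
  have hF : ∀ j v x I, i μ (SL m (fun ω : G ⧸ M => ω.out) j v x I) ∈ Fx r N :=
    fun j v x I g hg => by
    by_cases hx : x ∈ (A.e j).source
    · have h := SL_eqv m g j v x hx I
      rw [SL_N m _ hg j v x hx, det_of_eq Z (hN g hg), one_smul] at h
      rw [hπ, ← h]
    · simp only [SL_off _ _ _ _ _ hx, map_zero]
  obtain ⟨P, hP⟩ : ∃ P : Li (G ⧸ M) H →L[ℂ] Fx r N, ∀ j v x I,
      (P (SL m (fun ω : G ⧸ M => ω.out) j v x I) : Ms μ H) =
        i μ (SL m (fun ω : G ⧸ M => ω.out) j v x I) :=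
    ⟨(Fx r N).orthogonalProjectionOnto.comp (i μ), fun j v x I =>
      Submodule.starProjection_eq_self_iff.2 (hF j v x I)⟩
  obtain ⟨Φ, h1, h2, h3⟩ := exists_frm m (fun ω : G ⧸ M => ω.out) μ P
    (fun j v x I => by rw [← hP]; rfl) (rho Z r) (fun g j v x hx I => Subtype.ext (by
      change _ = (Z.L g).det • r.π g (P (SL m (fun ω : G ⧸ M => ω.out) j v x I))
      rw [hP, hP, hπ, ← map_smul, ← SL_eqv m g j v x hx])) hτ hS
  exact ⟨⟨μ, _, SL_eq m _, SL_hol m _, SL_deg m _, SL_hor m _, SL_closed m _, SL_lim m _, r, hπ,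
    hJ, Φ, h1, fun j v x _ I => by rw [h2]; exact hP j v x I, fun g ξ => by rw [h3]; rfl⟩⟩

end

end Crest.Agent.X261.Rel85
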