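import Crest.Agent.X261.Rel85.Poin

/-!
# Row 261, REL (helper85): locally `L¹`-null families, change of charts
-/

set_option autoImplicit false
set_option linter.unusedSectionVars false

noncomputable section

namespace Crest.Agent.X261.Rel85

open Set Filter Topology MeasureTheory Metric Module
open scoped ENNReal NNReal

section Chg

variable {E E' : Type*} [NormedAddCommGroup E] [NormedSpace ℝ E] [FiniteDimensional ℝ E]
  [MeasurableSpace E] [BorelSpace E] [NormedAddCommGroup E'] [NormedSpace ℝ E']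
  [FiniteDimensional ℝ E'] [MeasurableSpace E'] [BorelSpace E']
  (μ : Measure E) [μ.IsAddHaarMeasure] (μ' : Measure E') [μ'.IsAddHaarMeasure]

theorem meas_image_le (hd : finrank ℝ E = finrank ℝ E') (K : ℝ≥0) : ∃ C : ℝ≥0∞, C ≠ ⊤ ∧
    ∀ (ψ : E → E') (s : Set E), LipschitzOnWith K ψ s → μ' (ψ '' s) ≤ C * μ s := by
  obtain ⟨c1, h1⟩ : ∃ c : ℝ≥0, μ' = c • (μH[finrank ℝ E'] : Measure E') :=
    ⟨_, Measure.isAddLeftInvariant_eq_smul _ _⟩
  obtain ⟨c2, h2⟩ : ∃ c : ℝ≥0, (μH[finrank ℝ E] : Measure E) = c • μ :=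
    ⟨_, Measure.isAddLeftInvariant_eq_smul _ _⟩
  refine ⟨c1 * ((K : ℝ≥0∞) ^ (finrank ℝ E : ℝ) * c2), by finiteness, fun ψ s h => ?_⟩
  have h3 := h.hausdorffMeasure_image_le (d := finrank ℝ E) (by positivity)
  rw [h2] at h3
  rw [h1, Measure.smul_apply, ← hd, mul_assoc, mul_assoc]
  exact mul_le_mul_right h3 _

theorem lint_comp_le (hd : finrank ℝ E = finrank ℝ E') (K : ℝ≥0) : ∃ C : ℝ≥0∞, C ≠ ⊤ ∧
    ∀ (θ : E' → E) (ψ : E → E') (V : Set E'), MeasurableSet V → ContinuousOn θ V →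
      (∀ z ∈ V, ψ (θ z) = z) → LipschitzOnWith K ψ (θ '' V) →
      ∀ F : E → ℝ≥0∞, ∫⁻ z in V, F (θ z) ∂μ' ≤ C * ∫⁻ z in θ '' V, F z ∂μ := by
  obtain ⟨C, hC, h⟩ := meas_image_le μ μ' hd K
  refine ⟨C, hC, fun θ ψ V hV hθ hψ hL F => ?_⟩
  have h1 := hθ.measurableEmbedding hV (LeftInvOn.injOn hψ)
  rw [← lintegral_subtype_comap hV, ← smul_eq_mul, ← lintegral_smul_measure]
  refine (h1.lintegral_map F).symm.le.trans (lintegral_mono' (Measure.le_iff.2 fun s hs => ?_)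
    le_rfl)
  rw [h1.map_apply, (MeasurableEmbedding.subtype_coe hV).comap_apply, Measure.smul_apply,
    Measure.restrict_apply hs]
  refine (measure_mono ?_).trans (h ψ _ (hL.mono inter_subset_right))
  rintro _ ⟨z, hz, rfl⟩
  exact ⟨θ z, ⟨hz, z, z.2, rfl⟩, hψ z z.2⟩

omit [MeasurableSpace E] [BorelSpace E] [MeasurableSpace E'] [BorelSpace E'] in
theorem finrank_le_of_inv {θ : E' → E} {ψ : E → E'} {z : E'} (h1 : DifferentiableAt ℝ θ z)
    (h2 : DifferentiableAt ℝ ψ (θ z)) (h : ∀ᶠ y in 𝓝 z, ψ (θ y) = y) :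
    finrank ℝ E' ≤ finrank ℝ E := by
  have h3 := (h2.hasFDerivAt.comp z h1.hasFDerivAt).unique
    ((hasFDerivAt_id z).congr_of_eventuallyEq h)
  refine LinearMap.finrank_le_finrank_of_injective (f := (fderiv ℝ θ z : E' →ₗ[ℝ] E))
    (Function.LeftInverse.injective (g := fderiv ℝ ψ (θ z)) fun v => ?_)
  exact DFunLike.congr_fun h3 v

variable {M Ω H : Type*} [TopologicalSpace M] [NormedAddCommGroup H]

/-- the family `h` is `L¹`-null near `x`, in the chart `e` -/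
def Nl (e : OpenPartialHomeomorph M E) (x : M) (h : Ω → ℕ → M → H) : Prop :=
  ∃ V ∈ 𝓝 (e x), ∀ g, Tendsto (fun k => ∫⁻ z in V, ‖h g k (e.symm z)‖ₑ ∂μ) atTop (𝓝 0)

/-- compatible charts at `x` -/
structure Cp (e : OpenPartialHomeomorph M E) (e' : OpenPartialHomeomorph M E') (x : M) : Prop where
  mem : x ∈ e.source
  mem' : x ∈ e'.source
  sm : ContDiffAt ℝ 1 (fun z => e' (e.symm z)) (e x)
  sm' : ContDiffAt ℝ 1 (fun z => e (e'.symm z)) (e' x)

variable {μ μ'} {e : OpenPartialHomeomorph M E} {e' : OpenPartialHomeomorph M E'} {x : M}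
  {h h' : Ω → ℕ → M → H}

theorem Cp.symm (c : Cp e e' x) : Cp e' e x := ⟨c.mem', c.mem, c.sm', c.sm⟩

theorem Cp.ev (c : Cp e e' x) :
    ∀ᶠ z in 𝓝 (e' x), z ∈ e'.target ∧ e'.symm z ∈ e.source := by
  refine (e'.open_target.eventually_mem (e'.map_source c.mem')).and ?_
  refine (e'.continuousAt_symm (e'.map_source c.mem')).eventually ?_
  rw [e'.left_inv c.mem']
  exact e.open_source.mem_nhds c.mem

theorem Cp.le (c : Cp e e' x) : finrank ℝ E' ≤ finrank ℝ E := by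
  refine finrank_le_of_inv (c.sm'.differentiableAt one_ne_zero)
    (ψ := fun z => e' (e.symm z)) ?_ (c.ev.mono fun z hz => ?_)
  · rw [e'.left_inv c.mem']; exact c.sm.differentiableAt one_ne_zero
  · rw [e.left_inv hz.2, e'.right_inv hz.1]

theorem Nl.trans (c : Cp e e' x) (hN : Nl μ e x h) : Nl μ' e' x h := by
  obtain ⟨V, hV, h1⟩ := hN
  obtain ⟨K, t, ht, hK⟩ := c.sm.exists_lipschitzOnWith
  obtain ⟨C, hC, h2⟩ := lint_comp_le μ μ' (c.symm.le.antisymm c.le) K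
  have h3 : Tendsto (fun z => e (e'.symm z)) (𝓝 (e' x)) (𝓝 (e x)) := by
    simpa [ContinuousAt, e'.left_inv c.mem'] using c.sm'.continuousAt
  obtain ⟨O, hO1, hO2, hO3⟩ := _root_.eventually_nhds_iff.1 (c.ev.and (h3.eventually (inter_mem hV ht)))
  refine ⟨O, hO2.mem_nhds hO3, fun g => ?_⟩
  have h4 := ENNReal.Tendsto.const_mul (a := C) (h1 g) (Or.inr hC)
  rw [mul_zero] at h4
  refine tendsto_of_tendsto_of_tendsto_of_le_of_le tendsto_const_nhds h4 (fun _ => zero_le)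
    fun k => ?_
  refine le_trans (le_of_eq (setLIntegral_congr_fun hO2.measurableSet fun z hz => ?_))
    ((h2 (fun z => e (e'.symm z)) (fun z => e' (e.symm z)) O hO2.measurableSet ?_ ?_ (hK.mono ?_)
      fun z => ‖h g k (e.symm z)‖ₑ).trans (mul_le_mul_right (lintegral_mono_set ?_) _))
  · simp only [e.left_inv (hO1 z hz).1.2]
  · exact e.continuousOn.comp (e'.continuousOn_symm.mono fun z hz => (hO1 z hz).1.1)
      fun z hz => (hO1 z hz).1.2
  · exact fun z hz => by simp only [e.left_inv (hO1 z hz).1.2, e'.right_inv (hO1 z hz).1.1]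
  · rintro _ ⟨z, hz, rfl⟩; exact (hO1 z hz).2.2
  · rintro _ ⟨z, hz, rfl⟩; exact (hO1 z hz).2.1

theorem Nl.ev (hN : Nl μ e x h) (hx : x ∈ e.source) : ∀ᶠ y in 𝓝 x, Nl μ e y h := by
  obtain ⟨V, hV, h1⟩ := hN
  exact ((e.continuousAt hx).eventually (eventually_mem_nhds_iff.2 hV)).mono
    fun y hy => ⟨V, hy, h1⟩

theorem Nl.congr (hN : Nl μ e x h) (hx : x ∈ e.source)
    (hh : ∀ᶠ y in 𝓝 x, ∀ g k, h g k y = h' g k y) : Nl μ e x h' := by
  obtain ⟨V, hV, h1⟩ := hN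
  have h2 : ∀ᶠ z in 𝓝 (e x), ∀ g k, h g k (e.symm z) = h' g k (e.symm z) :=
    (e.tendsto_symm hx).eventually hh
  obtain ⟨O, hO1, hO2, hO3⟩ := _root_.eventually_nhds_iff.1 (h2.and hV)
  refine ⟨O, hO2.mem_nhds hO3, fun g => tendsto_of_tendsto_of_tendsto_of_le_of_le
    tendsto_const_nhds (h1 g) (fun _ => zero_le) fun k => ?_⟩
  exact le_trans (le_of_eq (setLIntegral_congr_fun hO2.measurableSet fun z hz => by
    simp only [(hO1 z hz).1])) (lintegral_mono_set fun z hz => (hO1 z hz).2)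

end Chg

section Calc

variable {E H : Type*} [TopologicalSpace E] [MeasurableSpace E] [BorelSpace E] {μ : Measure E}
  [NormedAddCommGroup H]

/-- `L¹`-null sequences on a set -/
def Nu (μ : Measure E) (V : Set E) (F : ℕ → E → H) : Prop :=
  Tendsto (fun k => ∫⁻ z in V, ‖F k z‖ₑ ∂μ) atTop (𝓝 0)

variable {V V' : Set E} {F F' : ℕ → E → H}

theorem Nu.of_le {a : ℕ → ℝ≥0∞} (ha : Tendsto a atTop (𝓝 0))
    (h : ∀ k, ∫⁻ z in V, ‖F k z‖ₑ ∂μ ≤ a k) : Nu μ V F :=
  tendsto_of_tendsto_of_tendsto_of_le_of_le tendsto_const_nhds ha (fun _ => zero_le) h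

theorem Nu.mono (h : Nu μ V F) (hV : V' ⊆ V) : Nu μ V' F :=
  Nu.of_le h fun _ => lintegral_mono_set hV

theorem Nu.congr (h : Nu μ V F) (hV : MeasurableSet V) (h' : ∀ k, ∀ z ∈ V, F k z = F' k z) :
    Nu μ V F' :=
  Nu.of_le h fun k => le_of_eq (setLIntegral_congr_fun hV fun z hz => by simp only [h' k z hz])

theorem aem (hV : MeasurableSet V) {f : E → H} (hf : ContinuousOn f V) :
    AEMeasurable (fun z => ‖f z‖ₑ) (μ.restrict V) :=
  (continuous_enorm.comp_continuousOn hf).aemeasurable hV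

theorem Nu.add (h : Nu μ V F) (h' : Nu μ V F') (hV : MeasurableSet V)
    (hc : ∀ k, ContinuousOn (F k) V) : Nu μ V fun k z => F k z + F' k z := by
  have h1 := Tendsto.add h h'
  rw [add_zero] at h1
  refine Nu.of_le h1 fun k => ?_
  rw [← lintegral_add_left' (aem hV (hc k))]
  exact lintegral_mono fun z => enorm_add_le _ _

theorem Nu.neg (h : Nu μ V F) : Nu μ V fun k z => -F k z := by simpa only [Nu, enorm_neg] using h

theorem Nu.sub (h : Nu μ V F) (h' : Nu μ V F') (hV : MeasurableSet V)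
    (hc : ∀ k, ContinuousOn (F k) V) : Nu μ V fun k z => F k z - F' k z := by
  simpa only [sub_eq_add_neg] using h.add h'.neg hV hc

theorem Nu.eq_zero [μ.IsOpenPosMeasure] {f : E → H} (h : Nu μ V fun _ => f) (hV : IsOpen V)
    (hc : ContinuousOn f V) {z : E} (hz : z ∈ V) : f z = 0 := by
  have h1 : ∫⁻ z in V, ‖f z‖ₑ ∂μ = 0 := tendsto_nhds_unique tendsto_const_nhds h
  rw [lintegral_eq_zero_iff' (aem hV.measurableSet hc)] at h1
  exact Measure.eqOn_open_of_ae_eq (μ := μ) (g := fun _ => 0)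
    (h1.mono fun z hz => by simpa using hz) hV hc continuousOn_const hz

theorem Nu.sum {ι : Type*} (s : Finset ι) {F : ι → ℕ → E → H} (hV : MeasurableSet V)
    (h : ∀ j ∈ s, Nu μ V (F j)) (hc : ∀ j ∈ s, ∀ k, ContinuousOn (F j k) V) :
    Tendsto (fun k => ∫⁻ z in V, ∑ j ∈ s, ‖F j k z‖ₑ ∂μ) atTop (𝓝 0) := by
  have h1 := tendsto_finsetSum s h
  rw [Finset.sum_const_zero] at h1
  exact h1.congr fun k => (lintegral_finsetSum' s fun j hj => aem hV (hc j hj k)).symm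

/-- finitely many null sequences are simultaneously small somewhere -/
theorem Nu.exists_pt {ι : Type*} (s : Finset ι) {F : ι → ℕ → E → H} (hV : MeasurableSet V)
    (h0 : μ V ≠ 0) (h : ∀ j ∈ s, Nu μ V (F j)) (hc : ∀ j ∈ s, ∀ k, ContinuousOn (F j k) V)
    {ε : ℝ} (hε : 0 < ε) : ∀ᶠ k in atTop, ∃ z ∈ V, ∀ j ∈ s, ‖F j k z‖ < ε := by
  have h1 : 0 < ENNReal.ofReal ε * μ V :=
    ENNReal.mul_pos (ENNReal.ofReal_pos.2 hε).ne' h0
  refine ((Nu.sum s hV h hc).eventually (gt_mem_nhds h1)).mono fun k hk => ?_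
  by_contra h2
  push Not at h2
  refine absurd hk (not_lt.2 ?_)
  rw [← setLIntegral_const]
  refine setLIntegral_mono' hV fun z hz => ?_
  obtain ⟨j, hj, h3⟩ := h2 z hz
  refine le_trans ?_ (Finset.single_le_sum (f := fun j => ‖F j k z‖ₑ) (fun _ _ => zero_le) hj)
  rw [← ofReal_norm]
  exact ENNReal.ofReal_le_ofReal h3

theorem Nu.of_sq (hV : MeasurableSet V) (hμ : μ V ≠ ⊤) (hc : ∀ k, ContinuousOn (F k) V)
    (h : Tendsto (fun k => ∫⁻ z in V, ‖F k z‖ₑ ^ 2 ∂μ) atTop (𝓝 0)) : Nu μ V F := by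
  have h1 := ENNReal.Tendsto.const_mul (a := μ V) h (Or.inr hμ)
  rw [mul_zero] at h1
  refine ENNReal.tendsto_nhds_zero.2 fun ε hε => ?_
  refine ((ENNReal.tendsto_nhds_zero.1 h1) (ε ^ 2) (by positivity)).mono fun k hk => ?_
  have h2 := sq_lintegral_le (μ.restrict V) (aem hV (hc k))
  rw [Measure.restrict_apply_univ] at h2
  exact (ENNReal.pow_le_pow_left_iff two_ne_zero).1 (h2.trans hk)

end Calc

section Prod

variable {T K H : Type*} [NormedAddCommGroup T] [NormedSpace ℝ T] [FiniteDimensional ℝ T]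
  [MeasurableSpace T] [BorelSpace T] [NormedAddCommGroup K] [NormedSpace ℝ K]
  [FiniteDimensional ℝ K] [MeasurableSpace K] [BorelSpace K]
  {μ : Measure T} [μ.IsAddHaarMeasure] {ν : Measure K} [ν.IsAddHaarMeasure] [NormedAddCommGroup H]
  {B : Set T} {P P' : Set K} {D : ℕ → T → H}

/-- a limit of functions of the first variable depends only on the first variable -/
theorem Nu.const_snd {γ : T × K → H} (hB : IsOpen B) (hP : IsOpen P)
    (hD : ∀ k, ContinuousOn (D k) B) (hγ : ContinuousOn γ (B ×ˢ P))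
    (h : Nu (μ.prod ν) (B ×ˢ P) fun k p => D k p.1 - γ p) {t : T} (ht : t ∈ B) {w w' : K}
    (hw : w ∈ P) (hw' : w' ∈ P) : γ (t, w') = γ (t, w) := by
  set η : T × K := (0, w' - w)
  set V := B ×ˢ P ∩ (· + η) ⁻¹' B ×ˢ P
  have hV : IsOpen V := (hB.prod hP).inter ((hB.prod hP).preimage (by fun_prop))
  have h1 : Nu (μ.prod ν) V fun k p => D k p.1 - γ (p + η) := by
    refine Nu.of_le h fun k => (lintegral_mono_set inter_subset_right).trans (le_of_eq ?_)
    refine Eq.trans ?_ ((measurePreserving_add_right (μ.prod ν) η).setLIntegral_comp_preimage_emb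
      (measurableEmbedding_addRight η) (fun p => ‖D k p.1 - γ p‖ₑ) _)
    simp [η]
  have h2 := (h.mono inter_subset_left).sub h1 hV.measurableSet fun k =>
    (((hD k).comp continuousOn_fst fun p hp => hp.1).sub hγ).mono inter_subset_left
  have h3 : Nu (μ.prod ν) V fun _ p => γ (p + η) - γ p :=
    h2.congr hV.measurableSet fun k p _ => by abel
  have h4 := h3.eq_zero hV ((hγ.comp (by fun_prop) fun p hp => hp.2).sub
    (hγ.mono inter_subset_left)) (z := (t, w)) ⟨⟨ht, hw⟩, by simp [η, ht, hw']⟩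
  simpa [η, sub_eq_zero] using h4

theorem lint_fst (hB : MeasurableSet B) (hP : MeasurableSet P) {d : T → H}
    (hd : ContinuousOn d B) :
    ∫⁻ p in B ×ˢ P, ‖d p.1‖ₑ ∂μ.prod ν = (∫⁻ t in B, ‖d t‖ₑ ∂μ) * ν P := by
  rw [setLIntegral_prod _ (aem (f := fun p : T × K => d p.1) (hB.prod hP)
    (hd.comp continuousOn_fst fun p hp => hp.1))]
  simp only [setLIntegral_const]
  rw [lintegral_mul_const'' _ (aem hB hd)]

theorem Nu.extend (hB : MeasurableSet B) (hP : MeasurableSet P) (hP' : MeasurableSet P')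
    (h0 : ν P ≠ 0) (h1 : ν P ≠ ⊤) (h2 : ν P' ≠ ⊤) (hD : ∀ k, ContinuousOn (D k) B)
    (h : Nu (μ.prod ν) (B ×ˢ P) fun k p => D k p.1) :
    Nu (μ.prod ν) (B ×ˢ P') fun k p => D k p.1 := by
  have h3 := ENNReal.Tendsto.mul_const (b := (ν P)⁻¹ * ν P') h (Or.inr (by finiteness))
  rw [zero_mul] at h3
  refine Nu.of_le h3 fun k => le_of_eq ?_
  rw [lint_fst hB hP (hD k), lint_fst hB hP' (hD k), mul_assoc, ← mul_assoc (ν P),
    ENNReal.mul_inv_cancel h0 h1, one_mul]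

end Prod

end Crest.Agent.X261.Rel85
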