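import Crest.Agent.X261.Rel.Stm
import Crest.Agent.X261.Plk.C
import Crest.Agent.X261.Gauss.NPa

/-!
# Row 261, REL (helper85), AVG part A: invariant means, translates of the form `S`
-/

set_option autoImplicit false
set_option linter.unusedSectionVars false

open Set Filter Topology Complex Matrix MeasureTheory
open scoped ENNReal InnerProductSpace

namespace Crest.Agent.X261.Rel85

open Crest.Agent.R275.Geo Crest.Agent.R275.Core144
open Crest.Agent.R275.OmT75 (dl dj dj_congr)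
open Crest.Agent.R273.UCov_914
open Crest.Agent.R273.Fock_243 (FI Gam eW iW ep)
open Crest.Agent.X261.Top (dW)
open Crest.Agent.X261.Gauss (mv dV Frm)
open Crest.Agent.X261.Rel Crest.Agent.X261.Rel.Act Crest.Agent.X261.Rel.Ms
open Crest.Agent.R189.MeanF

noncomputable section

/-! ### means -/

theorem exists_mean {Q : Type*} [Group Q] (h : R189.Amen Q) :
    ∃ μ : Mn Q, ∀ (g : Q) (f : Q → ℝ), Bdd f → μ.m (fun x => f (g * x)) = μ.m f := by
  classical
  choose p hp h using fun i : Finset Q × ℕ => h i.1 (1 / ((i.2 : ℝ) + 1)) Nat.one_div_pos_of_nat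
  obtain ⟨m, h1, h2, -⟩ := invMean_of_approx (G := Q) (Ω := Q) (atTop : Filter (Finset Q × ℕ))
    (fun i f => Finsupp.linearCombination ℝ f (p i)) (fun i => ⟨fun f g _ _ => by
      simp [Finsupp.linearCombination_apply, Finsupp.sum, mul_add, Finset.sum_add_distrib],
      fun c f _ => by simp [Finsupp.linearCombination_apply, Finsupp.sum, Finset.mul_sum,
        mul_left_comm],
      fun f _ hf => Finset.sum_nonneg fun x _ => mul_nonneg ((hp i).nonneg x) (hf x),
      (R189.mass_lc _).symm.trans (hp i).mass⟩) fun g f ⟨C, hC⟩ => by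
      have h0 : 0 ≤ C := (abs_nonneg _).trans (hC 1)
      have h5 : Tendsto (Prod.snd : Finset Q × ℕ → ℕ) atTop atTop := by
        rw [← prod_atTop_atTop_eq]; exact tendsto_snd
      have h3 := ((tendsto_one_div_add_atTop_nhds_zero_nat (𝕜 := ℝ)).comp h5).const_mul C
      rw [mul_zero] at h3
      refine squeeze_zero_norm' ((eventually_ge_atTop (({g} : Finset Q), 0)).mono fun i hi => ?_) h3
      have h4 : Finsupp.linearCombination ℝ (fun x => f (g • x)) (p i) =
          Finsupp.linearCombination ℝ f ((p i).mapDomain fun x => g * x) :=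
        (Finsupp.linearCombination_mapDomain ℝ (fun x => g * x) (p i)).symm
      rw [h4, ← map_sub]
      refine le_trans ?_ (mul_le_mul_of_nonneg_left (h i g (hi.1 (by simp))).le h0)
      rw [Finsupp.linearCombination_apply, R189.l1, Finsupp.sum, Finsupp.sum, Finset.mul_sum]
      refine (norm_sum_le _ _).trans (Finset.sum_le_sum fun x _ => ?_)
      rw [norm_smul, mul_comm]
      exact mul_le_mul_of_nonneg_right (hC x) (abs_nonneg _)
  exact ⟨⟨m, h1⟩, h2⟩

variable {Ω H : Type*} [NormedAddCommGroup H] [InnerProductSpace ℂ H]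

theorem bdd_li (u : Li Ω ℝ) : Bdd fun ω => u ω := ⟨‖u‖, norm_apply_le u⟩

/-- the mean as a continuous functional -/
def mL (μ : Mn Ω) : Li Ω ℝ →L[ℝ] ℝ :=
  LinearMap.mkContinuous
    { toFun := fun u => μ.m fun ω => u ω
      map_add' := fun u v => μ.is.add _ _ (bdd_li u) (bdd_li v)
      map_smul' := fun c u => μ.is.smul c _ (bdd_li u) } 1
    fun u => (μ.is.abs_le (norm_apply_le u)).trans_eq (one_mul _).symm

/-- the squared norm -/
def sqL (u : Li Ω H) : Li Ω ℝ := mk (fun ω => ‖u ω‖ ^ 2) (bdd_sq u)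

theorem continuous_sqL : Continuous (sqL : Li Ω H → Li Ω ℝ) := by
  refine continuous_iff_continuousAt.2 fun u => tendsto_iff_norm_sub_tendsto_zero.2 ?_
  have h : Tendsto (fun v : Li Ω H => ‖v - u‖ * (‖v‖ + ‖u‖)) (𝓝 u) (𝓝 0) := by
    have h : Continuous fun v : Li Ω H => ‖v - u‖ * (‖v‖ + ‖u‖) := by fun_prop
    simpa using h.tendsto u
  refine squeeze_zero (fun _ => norm_nonneg _) (fun v => norm_le _ (by positivity) fun ω => ?_) h
  change |‖v ω‖ ^ 2 - ‖u ω‖ ^ 2| ≤ _
  rw [sq_sub_sq, abs_mul, mul_comm, abs_of_nonneg (a := _ + _) (by positivity)]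
  exact mul_le_mul ((abs_norm_sub_norm_le _ _).trans (norm_apply_le (v - u) ω))
    (add_le_add (norm_apply_le v ω) (norm_apply_le u ω)) (by positivity) (norm_nonneg _)

theorem lint_sq {n : ℕ} {K : Set (Cn n)} (hK : IsCompact K) {W : Type*} [NormedAddCommGroup W]
    {F : Cn n → W} (hF : ContinuousOn F K) :
    ∫⁻ z in K, ‖F z‖ₑ ^ 2 = ENNReal.ofReal (∫ z in K, ‖F z‖ ^ 2) := by
  rw [ofReal_integral_eq_lintegral_ofReal (f := fun z => ‖F z‖ ^ 2)
    ((hF.norm.pow 2).integrableOn_compact hK)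
    (Eventually.of_forall fun _ => sq_nonneg _)]
  simp only [ENNReal.ofReal_pow (norm_nonneg _), ofReal_norm]

theorem int_mean (μ : Mn Ω) {n : ℕ} {K : Set (Cn n)} (hK : IsCompact K) {u : Cn n → Li Ω H}
    (hu : ContinuousOn u K) : (Bdd fun ω => ∫ z in K, ‖u z ω‖ ^ 2) ∧
      ∫ z in K, ‖i μ (u z)‖ ^ 2 = μ.m fun ω => ∫ z in K, ‖u z ω‖ ^ 2 := by
  have h1 : IntegrableOn (fun z => sqL (u z)) K :=
    (continuous_sqL.comp_continuousOn hu).integrableOn_compact hK
  have h2 : (fun ω => ∫ z in K, ‖u z ω‖ ^ 2) = fun ω => (∫ z in K, sqL (u z)) ω :=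
    funext fun ω => (lp.evalCLM ℝ (fun _ : Ω => ℝ) ⊤ ω).integral_comp_comm h1
  rw [h2]
  refine ⟨bdd_li _, ?_⟩
  simp only [norm_i_sq]
  exact (mL μ).integral_comp_comm h1

/-! ### the operator `∂` and linear maps -/

variable {n : ℕ} {X : Type} [TopologicalSpace X] {A : Atl n X} {G : Type} [Group G] {q : ℕ}

theorem dj_clm {W W' : Type*} [NormedAddCommGroup W] [NormedSpace ℂ W] [NormedAddCommGroup W']
    [NormedSpace ℂ W'] (l : W →L[ℂ] W') (c : W') {F : Cn n → W} {z : Cn n}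
    (hF : DifferentiableAt ℝ F z) (b : Fin n) :
    dj b (fun w => l (F w) + c) z = l (dj b F z) := by
  have h := (((l.restrictScalars ℝ).hasFDerivAt.comp z hF.hasFDerivAt).add_const c).fderiv
  unfold dj
  rw [show (fun w => l (F w) + c) = fun w => ((l.restrictScalars ℝ) ∘ F) w + c from rfl, h]
  simp

theorem dj_clm' {W W' : Type*} [NormedAddCommGroup W] [NormedSpace ℂ W] [NormedAddCommGroup W']
    [NormedSpace ℂ W'] (l : W →L[ℂ] W') {F : Cn n → W} {z : Cn n}
    (hF : DifferentiableAt ℝ F z) (b : Fin n) :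
    dj b (fun w => l (F w)) z = l (dj b F z) := by
  simpa using dj_clm l 0 hF b

/-- the matrix of a linear map -/
def mt (L : Cn q →L[ℂ] Cn q) : Matrix (Fin q) (Fin q) ℂ :=
  LinearMap.toMatrix (EuclideanSpace.basisFun _ ℂ).toBasis (EuclideanSpace.basisFun _ ℂ).toBasis L

theorem det_mt (L : Cn q →L[ℂ] Cn q) : (mt L).det = L.det := LinearMap.det_toMatrix _ _

theorem mt_apply (L : Cn q →L[ℂ] Cn q) (y : Cn q) (k : Fin q) :
    L y k = ∑ k', mt L k k' * y k' := by
  have h := congrFun (LinearMap.toMatrix_mulVec_repr (EuclideanSpace.basisFun _ ℂ).toBasis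
    (EuclideanSpace.basisFun _ ℂ).toBasis (L : Cn q →ₗ[ℂ] Cn q) y) k
  simpa [mt, Matrix.mulVec, dotProduct] using h.symm

theorem dV_aff (L : Cn q →L[ℂ] Cn q) (l : Cn q) {i : A.ι} {a : X → Cn q} {x : X}
    (ha : DifferentiableAt ℝ (fun z => a ((A.e i).symm z)) (A.e i x)) :
    dV A i (fun y => L (a y) + l) x = fun k => ∑ k', mt L k k' • dV A i a x k' := by
  funext k b
  have h1 := dj_clm ((EuclideanSpace.proj k).comp L) (l k) ha b
  have h2 := fun k' => dj_clm' (EuclideanSpace.proj (𝕜 := ℂ) k') ha b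
  simp only [Finset.sum_apply, Pi.smul_apply, smul_eq_mul]
  refine h1.trans ((mt_apply L _ k).trans (Finset.sum_congr rfl fun k' _ => ?_))
  exact congrArg _ (h2 k').symm

variable {D : MonD A G} {M : Subgroup G} (Z : Stp D q M)

theorem aV_mul (i : A.ι) (v s : G) (x : X) :
    aV D Z.al i (v * s⁻¹) x = Z.L s (aV D Z.al i v x) + Z.lam s := by
  rw [aV, ← D.deck_pt, Z.eqv, aV]

theorem aV_mul' (i : A.ι) (v s : G) :
    aV D Z.al i v = fun x => Z.L s (aV D Z.al i (v * s) x) + Z.lam s := by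
  funext x
  rw [← aV_mul, mul_inv_cancel_right]

theorem aV_hol (i : A.ι) (v : G) :
    DifferentiableOn ℂ (fun z => aV D Z.al i v ((A.e i).symm z)) (A.e i).target := Z.hol (i, v)

theorem dAt {W : Type*} [NormedAddCommGroup W] [NormedSpace ℂ W] {i : A.ι} {F : Cn n → W}
    (hF : DifferentiableOn ℂ F (A.e i).target) {x : X} (hx : x ∈ (A.e i).source) :
    DifferentiableAt ℝ F (A.e i x) :=
  (hF.differentiableAt ((A.e i).open_target.mem_nhds ((A.e i).map_source hx))).restrictScalars ℝ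

theorem dV_mul {i : A.ι} (v s : G) {x : X} (hx : x ∈ (A.e i).source) :
    dV A i (aV D Z.al i v) x =
      fun k => ∑ k', mt (Z.L s) k k' • dV A i (aV D Z.al i (v * s)) x k' := by
  rw [← dV_aff _ (Z.lam s) (dAt (aV_hol Z i (v * s)) hx), ← aV_mul']

theorem dW_mul {i : A.ι} (v s : G) {x : X} (hx : x ∈ (A.e i).source) :
    dW A i (aV D Z.al i v) x = (Z.L s).det • dW A i (aV D Z.al i (v * s)) x := by
  rw [Gauss.dW_eq, Gauss.dW_eq, dV_mul Z v s hx, Plk.wdg_lin, det_mt]

theorem vol_mul (i : A.ι) (v s : G) (K : Set (Cn n)) :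
    volume ((fun z => aV D Z.al i (v * s) ((A.e i).symm z)) '' K) =
      volume ((fun z => aV D Z.al i v ((A.e i).symm z)) '' K) := by
  have h : (fun z => aV D Z.al i v ((A.e i).symm z)) '' K = (· + Z.lam s) ''
      ((Z.L s).restrictScalars ℝ '' ((fun z => aV D Z.al i (v * s) ((A.e i).symm z)) '' K)) := by
    rw [image_image, image_image, aV_mul' Z i v s]
    rfl
  rw [h, image_add_right, measure_preimage_add_right, Measure.addHaar_image_continuousLinearMap,
    show LinearMap.det _ = _ from Gauss.NP.det_real (Z.L s), Z.det]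
  simp

theorem det_mul (g h : G) : (Z.L (g * h)).det = (Z.L g).det * (Z.L h).det := by
  rw [map_mul]
  exact map_mul LinearMap.det (Z.L g : Cn q →ₗ[ℂ] Cn q) (Z.L h)

theorem det_of_eq {g : G} (h : Z.L g = 1) : (Z.L g).det = 1 := by
  rw [h]
  exact map_one LinearMap.det

variable {H : Type} [NormedAddCommGroup H] [InnerProductSpace ℂ H] [CompleteSpace H]

theorem tw_mul (f : D.cov G → H) {i : A.ι} (v s : G) {x : X} (hx : x ∈ (A.e i).source)
    (I : FI n) : tw D Z.al (fun e => f (s⁻¹ • e)) i v x I =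
      (Z.L s).det • tw D Z.al f i (v * s) x I := by
  have h : aV D (fun e => f (s⁻¹ • e)) i v = aV D f i (v * s) := by
    funext y
    simp only [aV, D.deck_pt, inv_inv]
  simp only [Rel.tw, h, dW_mul Z v s hx, Matrix.mulVec_smul, Pi.smul_apply, Finset.smul_sum,
    smul_assoc]

variable {Z} {a : Act M H} {N : Subgroup G} (m : Min D Z.al a N)

/-- the translates of `S` are locally uniformly bounded -/
theorem unif_bd (i : A.ι) (v : G) {z₀ : Cn n} (hz : z₀ ∈ (A.e i).target) :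
    ∃ C : ℝ, 0 ≤ C ∧ ∀ᶠ z in 𝓝 z₀, ∀ s I, ‖m.S i (v * s) ((A.e i).symm z) I‖ ≤ C := by
  obtain ⟨V, hV, C, hC, h⟩ := m.up i z₀ hz
  obtain ⟨r, hr, h1⟩ := Metric.nhds_basis_closedBall.mem_iff.1
    (inter_mem hV ((A.e i).open_target.mem_nhds hz))
  have hK := isCompact_closedBall z₀ r
  have h2 : volume ((fun z => aV D Z.al i v ((A.e i).symm z)) '' Metric.closedBall z₀ r) < ⊤ :=
    (hK.image_of_continuousOn ((aV_hol Z i v).continuousOn.mono fun z hz => (h1 hz).2)).measure_lt_top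
  have h3 := (Metric.measure_ball_pos volume (0 : Cn n) (half_pos hr)).ne'
  set B := C * volume ((fun z => aV D Z.al i v ((A.e i).symm z)) '' Metric.closedBall z₀ r) /
    volume (Metric.ball (0 : Cn n) (r / 2))
  have hB : B ≠ ⊤ := ENNReal.div_ne_top (ENNReal.mul_ne_top hC.ne h2.ne) h3
  refine ⟨√B.toReal, Real.sqrt_nonneg _, mem_of_superset (Metric.ball_mem_nhds z₀ (half_pos hr))
    fun z hz s I => Real.le_sqrt_of_sq_le ?_⟩
  have h4 : Metric.ball z (r / 2) ⊆ Metric.closedBall z₀ r := fun y hy => by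
    rw [Metric.mem_closedBall]
    linarith [dist_triangle y z z₀, Metric.mem_ball.1 hy, Metric.mem_ball.1 hz]
  have h5 := Gauss.NP.submean volume (g := fun z => m.S i (v * s) ((A.e i).symm z) I) (u := z)
    (B := Metric.ball 0 (r / 2)) (B' := Metric.ball z (r / 2)) Metric.isOpen_ball
    (balanced_ball_zero) (fun v => by simp) fun y hy => (m.lim.S_hol i (v * s) I).differentiableAt
      ((A.e i).open_target.mem_nhds (h1 (h4 hy)).2)
  have h6 := (h5.trans (lintegral_mono_set h4)).trans (h (v * s) _ (fun z hz => (h1 hz).1) hK I)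
  rw [vol_mul, Measure.addHaar_ball_center, ← ENNReal.le_div_iff_mul_le (Or.inl h3)
    (Or.inl measure_ball_lt_top.ne)] at h6
  have h7 := ENNReal.toReal_mono hB h6
  rwa [ENNReal.toReal_pow, toReal_enorm] at h7

variable (σ : Ω → G)

open Classical in
/-- the translates of `S` as a form with values in `ℓ^∞` -/
def SL (i : A.ι) (v : G) (x : X) (I : FI n) : Li Ω H :=
  if hx : x ∈ (A.e i).source then mk (fun ω => (Z.L (σ ω)).det • m.S i (v * σ ω) x I) (by
    obtain ⟨C, -, hC⟩ := unif_bd m i v ((A.e i).map_source hx)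
    refine ⟨C, fun ω => ?_⟩
    have h := hC.self_of_nhds (σ ω) I
    rwa [norm_smul, Z.det, one_mul, ← (A.e i).left_inv hx]) else 0

theorem SL_eq (i : A.ι) (v : G) (x : X) (hx : x ∈ (A.e i).source) (I : FI n) (ω : Ω) :
    SL m σ i v x I ω = (Z.L (σ ω)).det • m.S i (v * σ ω) x I := by
  rw [SL, dif_pos hx, mk_apply]

theorem SL_off (i : A.ι) (v : G) (x : X) (hx : x ∉ (A.e i).source) (I : FI n) :
    SL m σ i v x I = 0 := dif_neg hx

theorem SL_hol' (i : A.ι) (v : G) (I : FI n) (ω : Ω) :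
    DifferentiableOn ℂ (fun z => SL m σ i v ((A.e i).symm z) I ω) (A.e i).target :=
  ((m.lim.S_hol i (v * σ ω) I).const_smul (Z.L (σ ω)).det).congr fun _ hz =>
    SL_eq m σ i v _ ((A.e i).map_target hz) I ω

theorem SL_hol (i : A.ι) (v : G) (I : FI n) :
    DifferentiableOn ℂ (fun z => SL m σ i v ((A.e i).symm z) I) (A.e i).target := by
  refine differentiableOn_li (A.e i).open_target (SL_hol' m σ i v I) fun z hz => ?_
  obtain ⟨C, hC0, hC⟩ := unif_bd m i v hz
  refine ⟨C, (hC.and ((A.e i).open_target.mem_nhds hz)).mono fun y hy =>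
    norm_le _ hC0 fun ω => ?_⟩
  rw [SL_eq m σ i v _ ((A.e i).map_target hy.2), norm_smul, Z.det, one_mul]
  exact hy.1 _ _

/-- evaluation -/
abbrev evL (H : Type) [NormedAddCommGroup H] [InnerProductSpace ℂ H] (ω : Ω) : Li Ω H →L[ℂ] H :=
  lp.evalCLM ℂ (fun _ : Ω => H) ⊤ ω

theorem mv_ev (B : Matrix (FI n) (FI n) ℂ) (S : FI n → Li Ω H) (I : FI n) (ω : Ω) :
    mv B S I ω = mv B (fun I => S I ω) I :=
  (congrFun (Plk.mv_map (evL H ω : Li Ω H →ₗ[ℂ] H) B S) I).symm

theorem SL_ev (i : A.ι) (v : G) (x : X) (hx : x ∈ (A.e i).source) (ω : Ω) :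
    (fun I => SL m σ i v x I ω) = (Z.L (σ ω)).det • m.S i (v * σ ω) x :=
  funext fun I => SL_eq m σ i v x hx I ω

theorem SL_deg (i : A.ι) (v : G) (x : X) (hx : x ∈ (A.e i).source) (I : FI n)
    (hI : I.card ≠ q + 1) : SL m σ i v x I = 0 := by
  ext ω
  rw [SL_eq m σ i v x hx, m.deg i _ x hx I hI, smul_zero]
  rfl

theorem SL_tr (i j : A.ι) (v : G) (x : X) (hx : x ∈ (A.e i).source ∩ (A.e j).source) :
    SL m σ i v x = mv (Gam (Jm A i j x)ᵀ) (SL m σ j (D.c i j x * v) x) := by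
  ext I ω
  rw [mv_ev, SL_ev m σ j _ x hx.2, SL_eq m σ i v x hx.1, m.S_tr i j _ x hx, mul_assoc]
  exact (congrFun (Plk.mv_smul' _ _ _) I).symm

theorem SL_hor (i : A.ι) (v : G) (x : X) (hx : x ∈ (A.e i).source) (k : Fin q) :
    mv (eW (dV A i (aV D Z.al i v) x k)) (SL m σ i v x) = 0 := by
  ext I ω
  rw [mv_ev, SL_ev m σ i v x hx, dV_mul Z v (σ ω) hx]
  have h : Plk.mv (Plk.eWL n (∑ k', mt (Z.L (σ ω)) k k' • dV A i (aV D Z.al i (v * σ ω)) x k'))
      ((Z.L (σ ω)).det • m.S i (v * σ ω) x) = 0 := by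
    rw [map_sum, Plk.mv_sum]
    refine Finset.sum_eq_zero fun k' _ => ?_
    rw [map_smul, Plk.mv_smul, Plk.mv_smul']
    have h : Plk.mv (Plk.eWL n (dV A i (aV D Z.al i (v * σ ω)) x k')) (m.S i (v * σ ω) x) = 0 :=
      m.hor i _ x hx k'
    rw [h, smul_zero, smul_zero]
  exact congrFun h I

theorem closed_map {W W' : Type*} [NormedAddCommGroup W] [NormedSpace ℂ W] [NormedAddCommGroup W']
    [NormedSpace ℂ W'] (l : W →L[ℂ] W') {i : A.ι} {S : X → FI n → W} {S' : X → FI n → W'}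
    (hS : ∀ I, DifferentiableOn ℂ (fun z => S ((A.e i).symm z) I) (A.e i).target)
    (h : ∀ x ∈ (A.e i).source, ∀ I, S' x I = l (S x I)) {x : X} (hx : x ∈ (A.e i).source)
    (J : FI n) : (∑ b, mv (eW (ep b)) (fun I => dl A i b (fun y => S' y I) x)) J =
      l ((∑ b, mv (eW (ep b)) (fun I => dl A i b (fun y => S y I) x)) J) := by
  have h1 : ∀ b I, dl A i b (fun y => S' y I) x = l (dl A i b (fun y => S y I) x) := fun b I =>
    (dj_congr (mem_of_superset ((A.e i).open_target.mem_nhds ((A.e i).map_source hx))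
      fun z hz => h _ ((A.e i).map_target hz) I)).trans (dj_clm' l (dAt (hS I) hx) b)
  simp only [h1, Finset.sum_apply, map_sum]
  exact Finset.sum_congr rfl fun b _ => congrFun (Plk.mv_map (l : W →ₗ[ℂ] W') _ _) J

theorem SL_closed (i : A.ι) (v : G) (x : X) (hx : x ∈ (A.e i).source) :
    ∑ b, mv (eW (ep b)) (fun I => dl A i b (fun y => SL m σ i v y I) x) = 0 := by
  ext J ω
  have h1 := closed_map (evL H ω) (S' := fun y I => SL m σ i v y I ω) (SL_hol m σ i v)
    (fun _ _ _ => rfl) hx J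
  have h2 := closed_map ((Z.L (σ ω)).det • ContinuousLinearMap.id ℂ H)
    (S' := fun y I => SL m σ i v y I ω) (m.lim.S_hol i (v * σ ω))
    (fun y hy I => SL_eq m σ i v y hy I ω) hx J
  rw [m.closed i _ x hx, Pi.zero_apply, map_zero] at h2
  exact h1.symm.trans h2

theorem SL_lim (ω : Ω) :
    Lim D Z.al (fun k e => m.f k ((σ ω)⁻¹ • e)) fun i v x I => SL m σ i v x I ω where
  f_sm k p := by
    refine (m.lim.f_sm k (p.1, p.2 * σ ω)).congr fun z _ => ?_
    change m.f k ((σ ω)⁻¹ • D.pt p.1 p.2 _) = m.f k (D.pt p.1 (p.2 * σ ω) _)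
    rw [D.deck_pt, inv_inv]
  S_hol i v I := SL_hol' m σ i v I ω
  lim i v K hK hK' I := by
    refine (m.lim.lim i (v * σ ω) K hK hK' I).congr fun k =>
      setLIntegral_congr_fun hK'.measurableSet fun z hz => ?_
    have hx := (A.e i).map_target (hK hz)
    simp only [tw_mul Z _ v (σ ω) hx, SL_eq m σ i v _ hx, ← smul_sub, enorm_smul]
    rw [← ofReal_norm (Z.L (σ ω)).det, Z.det, ENNReal.ofReal_one, one_mul]

end

end Crest.Agent.X261.Rel85
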