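import Mathlib

/-!
# Row 261, REL (helper85): the Poincaré inequality on a ball, vector valued
-/

set_option autoImplicit false
set_option linter.unusedSectionVars false

noncomputable section

namespace Crest.Agent.X261.Rel85

open Set Filter Topology MeasureTheory Metric Module
open scoped ENNReal

theorem sq_lintegral_le {α : Type*} [MeasurableSpace α] (μ : Measure α) {f : α → ℝ≥0∞}
    (hf : AEMeasurable f μ) : (∫⁻ a, f a ∂μ) ^ 2 ≤ μ univ * ∫⁻ a, f a ^ 2 ∂μ := by
  have h := ENNReal.lintegral_mul_le_Lp_mul_Lq μ Real.HolderConjugate.two_two hf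
    (g := fun _ => 1) aemeasurable_const
  simp only [Pi.mul_apply, mul_one, ENNReal.one_rpow, lintegral_const, one_mul] at h
  refine (pow_le_pow_left' h 2).trans (le_of_eq ?_)
  rw [mul_pow, ← ENNReal.rpow_natCast, ← ENNReal.rpow_natCast, ← ENNReal.rpow_mul,
    ← ENNReal.rpow_mul, mul_comm]
  norm_num

variable {E : Type*} [NormedAddCommGroup E] [NormedSpace ℝ E] [FiniteDimensional ℝ E]
  [MeasurableSpace E] [BorelSpace E] (μ : Measure E) [μ.IsAddHaarMeasure]

theorem lint_aff {φ : E → ℝ≥0∞} (hφ : Measurable φ) {P : Set E} (hP : MeasurableSet P) {c : ℝ}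
    (hc : 1 / 2 ≤ c) (y : E) (h : ∀ x ∈ P, c • x + y ∈ P) :
    ∫⁻ x in P, φ (c • x + y) ∂μ ≤ 2 ^ finrank ℝ E * ∫⁻ x in P, φ x ∂μ := by
  have hc0 : 0 < c := by linarith
  have h1 : Measurable (P.indicator φ) := hφ.indicator hP
  calc ∫⁻ x in P, φ (c • x + y) ∂μ ≤ ∫⁻ x, P.indicator φ (c • x + y) ∂μ := by
        rw [← lintegral_indicator hP]
        refine lintegral_mono fun x => ?_
        by_cases hx : x ∈ P
        · rw [indicator_of_mem hx, indicator_of_mem (h x hx)]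
        · rw [indicator_of_notMem hx]; exact zero_le
    _ = ∫⁻ x, P.indicator φ (x + y) ∂(μ.map (c • ·)) :=
        (lintegral_map (h1.comp (measurable_add_const y)) (measurable_const_smul c)).symm
    _ = ENNReal.ofReal |(c ^ finrank ℝ E)⁻¹| * ∫⁻ x in P, φ x ∂μ := by
        rw [Measure.map_addHaar_smul μ hc0.ne', lintegral_smul_measure, smul_eq_mul,
          lintegral_add_right_eq_self, lintegral_indicator hP]
    _ ≤ _ := by
        gcongr
        rw [abs_of_pos (by positivity), ← inv_pow, ENNReal.ofReal_pow (by positivity)]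
        gcongr
        rw [← ENNReal.ofReal_ofNat 2]
        exact ENNReal.ofReal_le_ofReal ((inv_le_comm₀ hc0 two_pos).2 (by linarith))

theorem lint_seg {φ : E → ℝ≥0∞} (hφ : Measurable φ) {P : Set E} (hP : MeasurableSet P)
    (hc : Convex ℝ P) :
    ∫⁻ y in P, ∫⁻ x in P, ∫⁻ s in Icc (0 : ℝ) 1, φ (x + s • (y - x)) ∂volume ∂μ ∂μ ≤
      2 ^ finrank ℝ E * μ P * ∫⁻ x in P, φ x ∂μ := by
  have h1 : ∀ s ∈ Icc (0 : ℝ) 1, ∫⁻ y in P, ∫⁻ x in P, φ (x + s • (y - x)) ∂μ ∂μ ≤
      2 ^ finrank ℝ E * μ P * ∫⁻ x in P, φ x ∂μ := by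
    intro s hs
    have h2 : ∀ x ∈ P, ∀ y ∈ P, x + s • (y - x) ∈ P := fun x hx y hy =>
      hc.add_smul_sub_mem hx hy hs
    rcases le_total s (1 / 2) with h | h
    · refine (setLIntegral_mono' hP (g := fun _ => 2 ^ finrank ℝ E * ∫⁻ x in P, φ x ∂μ)
        fun y hy => ?_).trans (le_of_eq ?_)
      · have h3 : ∀ x, x + s • (y - x) = (1 - s) • x + s • y := fun x => by module
        simp only [h3] at h2 ⊢
        exact lint_aff μ hφ hP (by linarith) _ fun x hx => h3 x ▸ hc.add_smul_sub_mem hx hy hs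
      · rw [setLIntegral_const]; ring
    · rw [lintegral_lintegral_swap (by fun_prop)]
      refine (setLIntegral_mono' hP (g := fun _ => 2 ^ finrank ℝ E * ∫⁻ x in P, φ x ∂μ)
        fun x hx => ?_).trans (le_of_eq ?_)
      · have h3 : ∀ y, x + s • (y - x) = s • y + (1 - s) • x := fun y => by module
        simp only [h3]
        exact lint_aff μ hφ hP h _ fun y hy => h3 y ▸ h2 x hx y hy
      · rw [setLIntegral_const]; ring
  calc _ = ∫⁻ y in P, ∫⁻ s in Icc (0 : ℝ) 1, ∫⁻ x in P, φ (x + s • (y - x)) ∂μ ∂volume ∂μ :=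
        lintegral_congr fun y => lintegral_lintegral_swap (by fun_prop)
    _ = ∫⁻ s in Icc (0 : ℝ) 1, ∫⁻ y in P, ∫⁻ x in P, φ (x + s • (y - x)) ∂μ ∂μ ∂volume := by
        refine lintegral_lintegral_swap (Measurable.aemeasurable ?_)
        exact Measurable.lintegral_prod_right'
          (f := fun p : (E × ℝ) × E => φ (p.2 + p.1.2 • (p.1.1 - p.2))) (by fun_prop)
    _ ≤ _ := (setLIntegral_mono' measurableSet_Icc h1).trans (by simp)

variable {H : Type*} [NormedAddCommGroup H] [NormedSpace ℝ H] [CompleteSpace H]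

omit [FiniteDimensional ℝ E] [MeasurableSpace E] [BorelSpace E] in
theorem enorm_sub_le_seg {g : E → H} {P : Set E} (hP : IsOpen P) (hc : Convex ℝ P)
    (hg : ContDiffOn ℝ 1 g P) {x y : E} (hx : x ∈ P) (hy : y ∈ P) :
    ‖g y - g x‖ₑ ≤ ‖y - x‖ₑ * ∫⁻ s in Icc (0 : ℝ) 1, ‖fderiv ℝ g (x + s • (y - x))‖ₑ := by
  have h1 : ∀ s ∈ Icc (0 : ℝ) 1, x + s • (y - x) ∈ P := fun s hs => hc.add_smul_sub_mem hx hy hs
  have h2 := enorm_sub_le_lintegral_deriv_of_contDiffOn_Icc (f := fun s : ℝ => g (x + s • (y - x)))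
    (hg.comp (by fun_prop) h1) zero_le_one
  simp only [one_smul, zero_smul, add_zero, add_sub_cancel] at h2
  refine h2.trans ?_
  rw [← lintegral_const_mul' _ _ enorm_ne_top]
  refine setLIntegral_mono' measurableSet_Icc fun s hs => ?_
  have h3 : HasDerivAt (fun s : ℝ => x + s • (y - x)) (y - x) s := by
    simpa using ((hasDerivAt_id s).smul_const (y - x)).const_add x
  have h4 := (((hg.contDiffAt (hP.mem_nhds (h1 s hs))).differentiableAt
    one_ne_zero).hasFDerivAt.comp_hasDerivAt s h3).deriv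
  rw [show (fun s : ℝ => g (x + s • (y - x))) = g ∘ fun s : ℝ => x + s • (y - x) from rfl, h4,
    mul_comm]
  exact ContinuousLinearMap.le_opENorm _ _

/-- the constant of the Poincaré inequality -/
def pc (c : E) (ρ : ℝ) : ℝ≥0∞ :=
  (μ (ball c (ρ / 2)))⁻¹ * ENNReal.ofReal (2 * ρ) ^ 2 * (2 ^ finrank ℝ E * μ (ball c ρ))

theorem pc_lt_top (c : E) {ρ : ℝ} (hρ : 0 < ρ) : pc μ c ρ < ⊤ := by
  have h1 := (measure_ball_pos μ c (half_pos hρ)).ne'
  have h2 := (measure_ball_lt_top (μ := μ) (x := c) (r := ρ)).ne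
  unfold pc
  finiteness

/-- **Poincaré inequality** -/
theorem poin (c : E) {ρ : ℝ} (hρ : 0 < ρ) {g : E → H} (hg : ContDiffOn ℝ 1 g (ball c ρ)) :
    ∫⁻ w in ball c ρ, ‖g w - ⨍ x in ball c (ρ / 2), g x ∂μ‖ₑ ^ 2 ∂μ ≤
      pc μ c ρ * ∫⁻ w in ball c ρ, ‖fderiv ℝ g w‖ₑ ^ 2 ∂μ := by
  have h1 := (measure_ball_pos μ c (half_pos hρ)).ne'
  have h2 := (measure_ball_lt_top (μ := μ) (x := c) (r := ρ / 2)).ne
  have hs : ball c (ρ / 2) ⊆ ball c ρ := ball_subset_ball (half_le_self hρ.le)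
  have hi : IntegrableOn g (ball c (ρ / 2)) μ :=
    ((hg.continuousOn.mono (closedBall_subset_ball (half_lt_self hρ))).integrableOn_compact
      (isCompact_closedBall _ _)).mono_set ball_subset_closedBall
  have hφ : Measurable fun w => ‖fderiv ℝ g w‖ₑ := (measurable_fderiv ℝ g).enorm
  have h3 : ∀ y ∈ ball c ρ, ‖g y - ⨍ x in ball c (ρ / 2), g x ∂μ‖ₑ ^ 2 ≤
      (μ (ball c (ρ / 2)))⁻¹ * ENNReal.ofReal (2 * ρ) ^ 2 * ∫⁻ x in ball c ρ,
        ∫⁻ s in Icc (0 : ℝ) 1, ‖fderiv ℝ g (x + s • (y - x))‖ₑ ^ 2 ∂volume ∂μ := by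
    intro y hy
    have : IsFiniteMeasure (μ.restrict (ball c (ρ / 2))) := ⟨by simpa using h2.lt_top⟩
    have h3 : g y - ⨍ x in ball c (ρ / 2), g x ∂μ =
        (μ.real (ball c (ρ / 2)))⁻¹ • ∫ x in ball c (ρ / 2), (g y - g x) ∂μ := by
      rw [integral_sub (integrable_const _) hi, setAverage_eq, smul_sub, setIntegral_const,
        inv_smul_smul₀ (by simp [Measure.real, ENNReal.toReal_eq_zero_iff, h1, h2])]
    have h4 : ‖g y - ⨍ x in ball c (ρ / 2), g x ∂μ‖ₑ ≤
        (μ (ball c (ρ / 2)))⁻¹ * ∫⁻ x in ball c (ρ / 2), ‖g y - g x‖ₑ ∂μ := by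
      rw [h3, enorm_smul]
      gcongr
      · rw [enorm_inv (by simp [Measure.real, ENNReal.toReal_eq_zero_iff, h1, h2]),
          Real.enorm_of_nonneg measureReal_nonneg, ofReal_measureReal h2]
      · exact enorm_integral_le_lintegral_enorm _
    have h5 := sq_lintegral_le (μ.restrict (ball c (ρ / 2))) (f := fun x => ‖g y - g x‖ₑ)
      ((integrable_const _).sub hi).1.enorm
    rw [Measure.restrict_apply_univ] at h5
    refine (pow_le_pow_left' h4 2).trans ?_
    rw [mul_pow, mul_assoc]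
    refine (mul_le_mul_right h5 _).trans ?_
    rw [sq, mul_assoc, ← mul_assoc _ (μ _), ENNReal.inv_mul_cancel h1 h2, one_mul,
      ← lintegral_const_mul' (ENNReal.ofReal (2 * ρ) ^ 2) _ (by finiteness)]
    refine mul_le_mul_right ?_ _
    refine (setLIntegral_mono' measurableSet_ball fun x hx => ?_).trans (lintegral_mono_set hs)
    refine (pow_le_pow_left' (enorm_sub_le_seg isOpen_ball (convex_ball c ρ) hg (hs hx) hy) 2).trans ?_
    rw [mul_pow]
    gcongr
    · rw [← ofReal_norm]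
      refine ENNReal.ofReal_le_ofReal ?_
      rw [← dist_eq_norm]
      linarith [dist_triangle_right y x c, mem_ball.1 hy, mem_ball.1 (hs hx)]
    · simpa using sq_lintegral_le (volume.restrict (Icc (0 : ℝ) 1))
        (f := fun s => ‖fderiv ℝ g (x + s • (y - x))‖ₑ) (hφ.comp (by fun_prop)).aemeasurable
  refine (setLIntegral_mono' measurableSet_ball h3).trans ?_
  rw [lintegral_const_mul' _ _ (by finiteness), pc, mul_assoc (_ * _)]
  gcongr
  exact lint_seg μ (hφ.pow_const 2) measurableSet_ball (convex_ball c ρ)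

end Crest.Agent.X261.Rel85
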